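import Vale.Agent.P322.CKofElem
import Vale.Agent.P322.ElemM
import Vale.Agent.P322.ElemOne

namespace Vale.Agent.Results.P322.CourtadeKumar

open Vale.Agent.P322

/-- For every Boolean function of the input, the mutual information with the noisy vector is at
most that of one coordinate. -/
theorem result (n : ℕ) (f : (Fin n → Bool) → Bool) (ε : ℝ)
    (hε : ε ∈ Set.Icc (0:ℝ) (1 / 2)) :
    mutualInfo f ε ≤ 1 - Real.binEntropy ε / Real.log 2 :=
  courtadeKumar_of_elem elemM_holds elemOne_holds n f ε hε

end Vale.Agent.Results.P322.CourtadeKumar
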